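import Mathlib
import Vale.Agent.P015_h2.Region

/-!
# P015: infinite components of the Gaussian moat graph are very sparse and never follow a line
-/

namespace Vale.Agent.Results.P015.SparseAndTubes

open Vale.Agent.P015h2

/-- The graph `G_D`: its vertices are all Gaussian primes (all four associates of each), and
distinct Gaussian primes `z`, `w` are adjacent when their Euclidean distance is at most `D`. -/
def moatGraph (D : ℝ) : SimpleGraph {z : GaussianInt // Prime z} where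
  Adj z w := z ≠ w ∧ ‖GaussianInt.toComplex z.1 - GaussianInt.toComplex w.1‖ ≤ D
  symm := ⟨fun z w h => ⟨h.1.symm, by
    rw [norm_sub_rev]
    exact h.2⟩⟩
  loopless := ⟨fun z h => h.1 rfl⟩

/-- The Gaussian primes `z` with `|z - z₀| ≤ R` that are joined in `G_D` by a path to a Gaussian
prime at distance at least `log R` from `z`. -/
def escaping (D R : ℝ) (z₀ : ℂ) : Set {z : GaussianInt // Prime z} :=
  {z | ‖GaussianInt.toComplex z.1 - z₀‖ ≤ R ∧ ∃ w, (moatGraph D).Reachable z w ∧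
    Real.log R ≤ ‖GaussianInt.toComplex z.1 - GaussianInt.toComplex w.1‖}

/-- The Gaussian primes `z` with `|z - z₀| ≤ R` whose connected component in `G_D` is infinite. -/
def inInfiniteComponent (D R : ℝ) (z₀ : ℂ) : Set {z : GaussianInt // Prime z} :=
  {z | ‖GaussianInt.toComplex z.1 - z₀‖ ≤ R ∧
    ((moatGraph D).connectedComponentMk z).supp.Infinite}

/-- The Gaussian primes `z` at distance at most `h z` from the line `{a + s b : s real}`. -/
def tube (a b : ℂ) (h : GaussianInt → ℝ) : Set {z : GaussianInt // Prime z} :=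
  {z | ∃ s : ℝ, ‖GaussianInt.toComplex z.1 - (a + s * b)‖ ≤ h z.1}

lemma finite_ball (z₀ : ℂ) (R : ℝ) :
    {z : {z : GaussianInt // Prime z} | ‖GaussianInt.toComplex z.1 - z₀‖ ≤ R}.Finite := by
  apply Set.Finite.of_finite_image (f := Subtype.val) _ Subtype.val_injective.injOn
  apply Set.Finite.subset (Finset.finite_toSet (box ⌈R + ‖z₀‖⌉₊))
  rintro z ⟨z, hz, rfl⟩
  apply mem_box_of_norm_le
  refine le_trans ?_ (Nat.le_ceil _)
  have h1 : ‖GaussianInt.toComplex z.1‖ ≤ ‖GaussianInt.toComplex z.1 - z₀‖ + ‖z₀‖ := by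
    have := norm_add_le (GaussianInt.toComplex z.1 - z₀) z₀
    rwa [sub_add_cancel] at this
  have h2 : ‖GaussianInt.toComplex z.1 - z₀‖ ≤ R := hz
  linarith

lemma exists_far {s : Set {z : GaussianInt // Prime z}} (hs : s.Infinite) (z₀ : ℂ) (R : ℝ) :
    ∃ w ∈ s, R ≤ ‖GaussianInt.toComplex w.1 - z₀‖ := by
  by_contra hcon
  push Not at hcon
  exact hs ((finite_ball z₀ R).subset fun w hw => (hcon w hw).le)

/-- A walk gives a sequence of distinct Gaussian primes inside the support of the walk. -/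
lemma exists_seq {V : Type} (G : SimpleGraph V) (φ : V → {z : GaussianInt // Prime z})
    (hφ : Function.Injective φ) (D : ℝ)
    (hadj : ∀ x y, G.Adj x y → (moatGraph D).Adj (φ x) (φ y)) {x y : V} (p : G.Walk x y) :
    ∃ (f : ℕ → GaussianInt) (n : ℕ), f 0 = (φ x).1 ∧ f n = (φ y).1 ∧
      (∀ i, i ≤ n → Prime (f i)) ∧ (∀ i, i ≤ n → ∀ j, j ≤ n → f i = f j → i = j) ∧
      (∀ i, i < n → ‖GaussianInt.toComplex (f (i + 1)) - GaussianInt.toComplex (f i)‖
        ≤ (⌈D⌉₊ : ℕ)) ∧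
      (∀ i, i ≤ n → ∃ u ∈ p.support, f i = (φ u).1) := by
  classical
  refine ⟨fun i => (φ ((p.toPath : G.Walk x y).getVert i)).1, (p.toPath : G.Walk x y).length,
    ?_, ?_, ?_, ?_, ?_, ?_⟩
  · simp only [SimpleGraph.Walk.getVert_zero]
  · simp only [SimpleGraph.Walk.getVert_length]
  · intro i _
    exact (φ ((p.toPath : G.Walk x y).getVert i)).2
  · intro i hi j hj hij
    exact p.toPath.2.getVert_injOn hi hj (hφ (Subtype.ext hij))
  · intro i hi
    have h1 := hadj _ _ ((p.toPath : G.Walk x y).adj_getVert_succ hi)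
    rw [norm_sub_rev]
    exact h1.2.trans (Nat.le_ceil D)
  · intro i _
    exact ⟨_, p.support_toPath_subset_support ((p.toPath : G.Walk x y).getVert_mem_support i), rfl⟩

/-- The line through `a` with direction `b`, with unit direction vector. -/
lemma line_unit {a b u : ℂ} (hb : b ≠ 0) {h : ℝ} (hs : ∃ s : ℝ, ‖u - (a + s * b)‖ ≤ h) :
    ∃ s : ℝ, ‖u - (a + s * (b / ‖b‖))‖ ≤ h := by
  obtain ⟨s, hs⟩ := hs
  refine ⟨s * ‖b‖, ?_⟩
  have hb' : (‖b‖ : ℂ) ≠ 0 := by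
    exact_mod_cast norm_ne_zero_iff.2 hb
  have e : ((s * ‖b‖ : ℝ) : ℂ) * (b / ‖b‖) = s * b := by
    push_cast
    field_simp
  rw [e]
  exact hs

theorem part_escaping (D : ℝ) : ∃ c : ℝ, 0 < c ∧ ∃ R₀ : ℝ, ∀ R : ℝ, R₀ ≤ R → ∀ z₀ : ℂ,
    (escaping D R z₀).Finite ∧
      ((escaping D R z₀).ncard : ℝ) ≤ R ^ (2 - c / Real.log (Real.log R)) := by
  obtain ⟨c, hc, R₀, hR₀⟩ := count_seq ⌈D⌉₊
  refine ⟨c, hc, R₀, fun R hR z₀ => ?_⟩
  have hfin : (escaping D R z₀).Finite := (finite_ball z₀ R).subset fun z hz => hz.1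
  refine ⟨hfin, ?_⟩
  classical
  have hcard : ((hfin.toFinset.image Subtype.val).card : ℝ) = ((escaping D R z₀).ncard : ℝ) := by
    rw [Finset.card_image_of_injective _ Subtype.val_injective,
      Set.ncard_eq_toFinset_card _ hfin]
  rw [← hcard]
  apply hR₀ R hR z₀
  intro z hz
  rw [Finset.mem_image] at hz
  obtain ⟨z, hz, rfl⟩ := hz
  rw [Set.Finite.mem_toFinset] at hz
  obtain ⟨hz1, w, ⟨p⟩, hw⟩ := hz
  refine ⟨hz1, ?_⟩
  obtain ⟨f, n, h0, hn, h1, h2, h3, _⟩ := exists_seq (moatGraph D) id Function.injective_id D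
    (fun _ _ h => h) p
  refine ⟨f, n, h0, h1, h2, h3, ?_⟩
  rw [h0, hn, norm_sub_rev]
  exact hw

theorem part_infinite (D : ℝ) : ∃ c : ℝ, 0 < c ∧ ∃ R₀ : ℝ, ∀ R : ℝ, R₀ ≤ R → ∀ z₀ : ℂ,
    (inInfiniteComponent D R z₀).Finite ∧
      ((inInfiniteComponent D R z₀).ncard : ℝ) ≤ R ^ (2 - c / Real.log (Real.log R)) := by
  obtain ⟨c, hc, R₀, hR₀⟩ := part_escaping D
  refine ⟨c, hc, R₀, fun R hR z₀ => ?_⟩
  obtain ⟨h1, h2⟩ := hR₀ R hR z₀
  have hsub : inInfiniteComponent D R z₀ ⊆ escaping D R z₀ := by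
    intro z hz
    refine ⟨hz.1, ?_⟩
    obtain ⟨w, hw, hwR⟩ := exists_far hz.2 (GaussianInt.toComplex z.1) (Real.log R)
    refine ⟨w, ?_, ?_⟩
    · rw [SimpleGraph.ConnectedComponent.mem_supp_iff, SimpleGraph.ConnectedComponent.eq] at hw
      exact hw.symm
    · rw [norm_sub_rev]
      exact hwR
  refine ⟨h1.subset hsub, le_trans ?_ h2⟩
  exact_mod_cast Set.ncard_le_ncard hsub h1

theorem part_tube (D : ℝ) : ∃ c : ℝ, 0 < c ∧ ∃ L₀ : ℝ, ∀ L : ℝ, L₀ ≤ L → ∀ a b : ℂ, b ≠ 0 →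
    ∀ (z w : {z : GaussianInt // Prime z}) (p : (moatGraph D).Walk z w),
    (∀ u ∈ p.support, u ∈ tube a b (fun _ => L ^ (c / Real.log (Real.log L)))) →
    ‖GaussianInt.toComplex z.1 - GaussianInt.toComplex w.1‖ < L := by
  obtain ⟨c, hc, L₀, hL₀⟩ := tube_seq ⌈D⌉₊
  refine ⟨c, hc, L₀, ?_⟩
  intro L hL a b hb z w p hp
  obtain ⟨f, n, h0, hn, h1, h2, h3, h4⟩ := exists_seq (moatGraph D) id Function.injective_id D
    (fun _ _ h => h) p
  have hb' : ‖b / (‖b‖ : ℂ)‖ = 1 := by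
    rw [norm_div, Complex.norm_real, norm_norm]
    exact div_self (norm_ne_zero_iff.2 hb)
  have := hL₀ L hL a (b / ‖b‖) hb' f n h1 h2 h3 (fun i hi => by
    obtain ⟨u, hu, hfu⟩ := h4 i hi
    rw [hfu]
    exact line_unit hb (hp u hu))
  rw [h0, hn, norm_sub_rev] at this
  exact this

theorem part_region (D : ℝ) : ∃ c : ℝ, 0 < c ∧ ∀ a b : ℂ, b ≠ 0 →
    ∀ C : ((moatGraph D).induce (tube a b (fun z => ‖GaussianInt.toComplex z‖ ^
      (c / Real.log (Real.log ‖GaussianInt.toComplex z‖))))).ConnectedComponent,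
    C.supp.Finite := by
  obtain ⟨c, hc, hreg⟩ := region_seq ⌈D⌉₊
  refine ⟨c, hc, ?_⟩
  intro a b hb C
  by_contra hinf
  have hinf' : C.supp.Infinite := hinf
  have hb' : ‖b / (‖b‖ : ℂ)‖ = 1 := by
    rw [norm_div, Complex.norm_real, norm_norm]
    exact div_self (norm_ne_zero_iff.2 hb)
  obtain ⟨z, hz⟩ := hinf'.nonempty
  obtain ⟨R, hR⟩ := hreg a (b / ‖b‖) hb' z.1.1
  have himg : (Subtype.val '' C.supp).Infinite := hinf'.image Subtype.val_injective.injOn
  obtain ⟨w', ⟨w, hw, rfl⟩, hwR⟩ := exists_far himg (GaussianInt.toComplex z.1.1) R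
  have hreach : ((moatGraph D).induce (tube a b (fun z => ‖GaussianInt.toComplex z‖ ^
      (c / Real.log (Real.log ‖GaussianInt.toComplex z‖))))).Reachable z w := by
    rw [SimpleGraph.ConnectedComponent.mem_supp_iff] at hz hw
    rw [← SimpleGraph.ConnectedComponent.eq, hz, hw]
  obtain ⟨p⟩ := hreach
  obtain ⟨f, n, h0, hn, h1, h2, h3, h4⟩ := exists_seq _ Subtype.val Subtype.val_injective D
    (fun _ _ h => h) p
  have := hR f n h0 h1 h2 h3 (fun i hi => by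
    obtain ⟨u, _, hfu⟩ := h4 i hi
    rw [hfu]
    exact line_unit hb u.2)
  rw [h0, hn] at this
  linarith

/-- Partial results on the Gaussian moat problem, for every finite `D`. -/
theorem result (D : ℝ) (_hD : 0 < D) :
    (∃ c : ℝ, 0 < c ∧ ∃ R₀ : ℝ, ∀ R : ℝ, R₀ ≤ R → ∀ z₀ : ℂ,
      (escaping D R z₀).Finite ∧
        ((escaping D R z₀).ncard : ℝ) ≤ R ^ (2 - c / Real.log (Real.log R))) ∧
    (∃ c : ℝ, 0 < c ∧ ∃ R₀ : ℝ, ∀ R : ℝ, R₀ ≤ R → ∀ z₀ : ℂ,
      (inInfiniteComponent D R z₀).Finite ∧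
        ((inInfiniteComponent D R z₀).ncard : ℝ) ≤ R ^ (2 - c / Real.log (Real.log R))) ∧
    (∃ c : ℝ, 0 < c ∧ ∃ L₀ : ℝ, ∀ L : ℝ, L₀ ≤ L → ∀ a b : ℂ, b ≠ 0 →
      ∀ (z w : {z : GaussianInt // Prime z}) (p : (moatGraph D).Walk z w),
      (∀ u ∈ p.support, u ∈ tube a b (fun _ => L ^ (c / Real.log (Real.log L)))) →
      ‖GaussianInt.toComplex z.1 - GaussianInt.toComplex w.1‖ < L) ∧
    (∃ c : ℝ, 0 < c ∧ ∀ a b : ℂ, b ≠ 0 →
      ∀ C : ((moatGraph D).induce (tube a b (fun z => ‖GaussianInt.toComplex z‖ ^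
        (c / Real.log (Real.log ‖GaussianInt.toComplex z‖))))).ConnectedComponent,
      C.supp.Finite) :=
  ⟨part_escaping D, part_infinite D, part_tube D, part_region D⟩

end Vale.Agent.Results.P015.SparseAndTubes
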